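import Vale.Agent.P042.H984.Interp2
import Vale.Agent.P042.H384.End

/-!
# The end theorem of step H1.e of `P042` with capped radii (helper984)

Same as `H384.end_sets`, but

* the bound (F1) is only needed for radii `r j ≤ rho j`, where `rho j ≥ exp 3` and
  `cr * log k ≤ log (rho j)` for `1 ≤ k ≤ b0`, `k ≤ n_j` (so `rho j = min (n_j, b0) ^ cr`);
* its right hand side is `exp (C1 + ∑ B j (r j + r j ^ 2))` with arbitrary
  `1 ≤ B j ≤ n_j ^ g`;
* `b0` only has to dominate `900 ∑ B j`.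
-/

set_option linter.unusedSectionVars false

namespace Vale.Agent.P042.H984

open Finset Vale.Agent.P042.H384
open Vale.Agent.P042.H159 (MC)
open Vale.Agent.P042.H284 (co tyi tyi_apply tyi_degree tyi_empty sum_tyi euler co_zero)

universe u v

/-- interpolation, dyadic scales, capped radii -/
theorem interp_dyadic2 {K c cr C1 : ℝ} (hK : 0 ≤ K) (hc : 0 < c) (hcr0 : 0 < cr)
    (hcr : cr ≤ 1 / 2) (hC1 : 0 ≤ C1) :
    ∃ g0 : ℝ, 0 < g0 ∧ ∃ l0 : ℕ, ∀ {J : Type u} [Fintype J] [DecidableEq J] (sc : J → ℕ)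
      (b0 : ℕ) (g : ℝ) (Bd rho : J → ℝ) (F W : (J →₀ ℕ) → ℝ) (S T : Finset (J →₀ ℕ)),
      Function.Injective sc → (∀ j, l0 ≤ sc j) → 0 ≤ g → g ≤ g0 →
      (∀ j, 1 ≤ Bd j) → (∀ j, Bd j ≤ Real.exp (g * ((sc j : ℝ) * Real.log 2))) →
      C1 + 900 * ∑ j, Bd j + Fintype.card J + 3 ≤ b0 →
      (∀ j, Real.exp 3 ≤ rho j) →
      (∀ (j : J) (k : ℕ), k ≠ 0 → k ≤ b0 → (k : ℝ) ≤ Real.exp ((sc j : ℝ) * Real.log 2) →
        cr * Real.log k ≤ Real.log (rho j)) →
      F 0 = 1 → (∀ a, a ∉ S → F a = 0) →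
      (∀ a : J →₀ ℕ, F a ≠ 0 → ∀ j, (a j : ℝ) ≤ Real.exp ((sc j : ℝ) * Real.log 2)) →
      (∀ a : J →₀ ℕ, a.degree ≤ b0 → (a.degree : ℝ) * F a
        = ∑ x ∈ HasAntidiagonal.antidiagonal a, (x.1.degree : ℝ) * W x.1 * F x.2) →
      0 ∉ T →
      (∀ r : J → ℝ, (∀ j, 0 ≤ r j) → (∀ j, r j ≤ rho j) →
        ∀ a : J →₀ ℕ, |F a| * mo r a ≤ Real.exp (C1 + ∑ j, Bd j * (r j + r j ^ 2))) →
      (∀ r : J → ℝ, (∀ j, 0 ≤ r j) → ∑ m ∈ T, |W m| * mo r m
          ≤ ∑ j, Bd j * (r j + r j ^ 2)) →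
      (∀ m : J →₀ ℕ, m ≠ 0 → m ∉ T → m.degree ≤ b0 →
        |W m| ≤ Real.exp (K * m.degree * Real.log (lf (fun j => (sc j : ℝ) * Real.log 2) m)
          - c * lf (fun j => (sc j : ℝ) * Real.log 2) m)) →
      1 / 2 * Real.exp (-∑ m ∈ T, |W m|) ≤ ∑ a ∈ S, F a := by
  have hl2 : 0 < Real.log 2 := Real.log_pos (by norm_num)
  set e := c / (4 * (K + 1)) with he
  have he0 : 0 < e := by positivity
  have hKe : K * e ≤ c / 4 := by
    rw [he]
    rw [mul_div_assoc', div_le_div_iff₀ (by positivity) (by norm_num)]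
    nlinarith
  set ph := cr / (cr + K + 1) with hphd
  have hph0 : 0 < ph := by positivity
  have hph1 : ph ≤ 1 := by rw [hphd, div_le_one (by positivity)]; linarith
  have hph : ph * K ≤ (1 - ph) * cr := by
    have h1 : ph * (cr + K + 1) = cr := by rw [hphd]; field_simp
    nlinarith
  set g0 := ph * c / 4 with hg0
  have hg0p : 0 < g0 := by positivity
  obtain ⟨l1', h1'⟩ := geom_small.{u} (d := e / 4) (e := e / 4) (by positivity) (by positivity)
  obtain ⟨l2', h2'⟩ := geom_small.{u} (d := c / 4) (e := 1 / 4) (by positivity) (by norm_num)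
  obtain ⟨l3', h3'⟩ := geom_small.{u} (d := g0) (e := Real.exp (-C1) / 32 / Real.exp 4)
    hg0p (by positivity)
  obtain ⟨l4', h4'⟩ := log_small (d := e / 2) (by positivity)
  refine ⟨g0, hg0p, max (max l1' l2') (max l3' l4'), ?_⟩
  intro J _ _ sc b0 g Bd rho F W S T hinj hsc0 hg hgg hB1 hBg hb0 hrho hrhok hF0 hFS hFn hE hT0
    hF1 hT hD
  set ell : J → ℝ := fun j => (sc j : ℝ) * Real.log 2 with hell
  have hm1 : ∀ j, l1' ≤ sc j := fun j => (le_trans (by simp) (hsc0 j))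
  have hm2 : ∀ j, l2' ≤ sc j := fun j => (le_trans (by simp) (hsc0 j))
  have hm3 : ∀ j, l3' ≤ sc j := fun j => (le_trans (by simp) (hsc0 j))
  have hm4 : ∀ j, l4' ≤ sc j := fun j => (le_trans (by simp) (hsc0 j))
  have hell2 : ∀ j, 2 ≤ ell j := fun j => (h4' (sc j) (hm4 j)).1
  have hell1 : ∀ j, 1 ≤ ell j := fun j => by linarith [hell2 j]
  have hlog : ∀ j, Real.log (ell j) ≤ e / 2 * ell j := fun j => (h4' (sc j) (hm4 j)).2
  have hsum1 : ∑ j, Real.exp (-(e / 4 * ell j)) ≤ e / 4 := h1' l1' le_rfl sc hinj hm1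
  have hsum2 : ∑ j, Real.exp (-(c / 4 * ell j)) ≤ 1 / 4 := h2' l2' le_rfl sc hinj hm2
  have hsum3 : ∑ j, Real.exp (-(g0 * ell j)) ≤ Real.exp (-C1) / 32 / Real.exp 4 :=
    h3' l3' le_rfl sc hinj hm3
  refine interp2 F W S T b0 ell Bd rho C1 K (c - K * e) (c / 2) cr ph
    hF0 hFS hrho ?_ hE hT0 hF1 hT ?_ hB1 hC1 hcr0 hcr hK hph0.le hph1 hph ?_ ?_ hb0
  · intro a ha hab j hj
    exact hrhok j (a j) hj ((Finsupp.le_degree j a).trans hab) (hFn a ha j)
  · intro m hm hmT hmb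
    exact gibbs_bound hK hell1 hlog hsum1 hm (hD m hm hmT hmb)
  · refine le_trans (Finset.sum_le_sum fun j _ => Real.exp_le_exp.mpr ?_) hsum2
    have := hell1 j
    nlinarith
  · have h5 : ∀ j, Real.exp (Real.log (Bd j) + 4 - ph * (c / 2) * ell j)
        ≤ Real.exp 4 * Real.exp (-(g0 * ell j)) := by
      intro j
      rw [← Real.exp_add]
      refine Real.exp_le_exp.mpr ?_
      have h7 : Real.log (Bd j) ≤ g * ell j := by
        have := Real.log_le_log (lt_of_lt_of_le one_pos (hB1 j)) (hBg j)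
        rwa [Real.log_exp] at this
      have := hell1 j
      have h6 : ph * (c / 2) = 2 * g0 := by rw [hg0]; ring
      rw [h6]
      nlinarith
    refine (Finset.sum_le_sum fun j _ => h5 j).trans ?_
    rw [← Finset.mul_sum]
    calc Real.exp 4 * ∑ j, Real.exp (-(g0 * ell j))
        ≤ Real.exp 4 * (Real.exp (-C1) / 32 / Real.exp 4) :=
          mul_le_mul_of_nonneg_left hsum3 (Real.exp_pos _).le
      _ = Real.exp (-C1) / 32 := by field_simp

/-- **End theorem of H1.e, capped radii** -/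
theorem end_sets2 {K c cr C1 : ℝ} (hK : 0 ≤ K) (hc : 0 < c) (hcr0 : 0 < cr)
    (hcr : cr ≤ 1 / 2) (hC1 : 0 ≤ C1) :
    ∃ g0 : ℝ, 0 < g0 ∧ ∃ l0 : ℕ, ∀ {J : Type u} [Fintype J] [DecidableEq J] (sc : J → ℕ)
      (b0 : ℕ) (g : ℝ) (Bd rho : J → ℝ) {ι : Type v} [Fintype ι] [DecidableEq ι] (ty : ι → J)
      (FB : Finset ι → ℝ) (DD : Finset (Finset ι)) (z w : Multiset J → ℝ),
      Function.Injective sc → (∀ j, l0 ≤ sc j) → 0 ≤ g → g ≤ g0 →
      (∀ j, 1 ≤ Bd j) → (∀ j, Bd j ≤ Real.exp (g * ((sc j : ℝ) * Real.log 2))) →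
      C1 + 900 * ∑ j, Bd j + Fintype.card J + 3 ≤ b0 →
      (∀ j, Real.exp 3 ≤ rho j) →
      (∀ (j : J) (k : ℕ), k ≠ 0 → k ≤ b0 → (k : ℝ) ≤ Real.exp ((sc j : ℝ) * Real.log 2) →
        cr * Real.log k ≤ Real.log (rho j)) →
      (∀ j, ((Finset.univ.filter (fun i => ty i = j)).card : ℝ)
        ≤ Real.exp ((sc j : ℝ) * Real.log 2)) →
      MC z w →
      (∀ a : J →₀ ℕ, a.degree ≤ b0 → co z a
        = ∑ B ∈ (Finset.univ : Finset ι).powerset.filter (fun B => tyi ty B = a), FB B) →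
      FB ∅ = 1 → (∀ B : Finset ι, B.card ≤ b0 → B ∈ DD) →
      (∀ r : J → ℝ, (∀ j, 0 ≤ r j) → (∀ j, r j ≤ rho j) →
        ∑ B ∈ DD, |FB B| * ∏ i ∈ B, r (ty i)
          ≤ Real.exp (C1 + ∑ j, Bd j * (r j + r j ^ 2))) →
      (∀ j, |co w (Finsupp.single j 1)| ≤ Bd j) →
      (∀ j, ∑ i, |co w (Finsupp.single i 1 + Finsupp.single j 1)| ≤ Bd j) →
      (∀ a : J →₀ ℕ, 3 ≤ a.degree → a.degree ≤ b0 →
        |co w a| ≤ Real.exp (K * a.degree * Real.log (lf (fun j => (sc j : ℝ) * Real.log 2) a)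
          - c * lf (fun j => (sc j : ℝ) * Real.log 2) a)) →
      1 / 2 * Real.exp (-(2 * ∑ j, Bd j)) ≤ ∑ B ∈ DD, FB B := by
  obtain ⟨g0, hg0, l0, H⟩ := interp_dyadic2.{u} hK hc hcr0 hcr hC1
  refine ⟨g0, hg0, l0, ?_⟩
  intro J _ _ sc b0 g Bd rho ι _ _ ty FB DD z w hinj hsc0 hg hgg hB1 hBg hb0 hrho hrhok hcard hMC
    hz hFB0 hDD hF1 hP1 hP2 hD
  classical
  set F : (J →₀ ℕ) → ℝ := fun a => ∑ B ∈ DD.filter (fun B => tyi ty B = a), FB B with hF
  have hFz : ∀ a : J →₀ ℕ, a.degree ≤ b0 → F a = co z a := by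
    intro a ha
    rw [hz a ha, hF]
    refine Finset.sum_congr ?_ fun _ _ => rfl
    ext B
    rw [Finset.mem_filter, Finset.mem_filter]
    constructor
    · rintro ⟨_, h⟩
      exact ⟨Finset.mem_powerset.mpr (Finset.subset_univ _), h⟩
    · rintro ⟨_, h⟩
      refine ⟨hDD B ?_, h⟩
      rw [← tyi_degree ty B, h]; exact ha
  have hmain := H sc b0 g Bd rho F (co w) (DD.image (tyi ty)) (T12 J) hinj hsc0 hg hgg hB1 hBg
    hb0 hrho hrhok ?_ ?_ ?_ ?_ zero_notMem_T12 ?_ ?_ ?_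
  · have h1 : ∑ a ∈ DD.image (tyi ty), F a = ∑ B ∈ DD, FB B := (sum_tyi ty DD FB).symm
    rw [h1] at hmain
    refine le_trans ?_ hmain
    refine mul_le_mul_of_nonneg_left (Real.exp_le_exp.mpr ?_) (by norm_num)
    exact neg_le_neg (T12_total (co w) _ hP1 hP2)
  · -- `F 0 = 1`
    have h1 : DD.filter (fun B => tyi ty B = 0) = {∅} := by
      ext B
      rw [Finset.mem_filter, Finset.mem_singleton]
      constructor
      · rintro ⟨_, h⟩
        rw [← Finset.card_eq_zero, ← tyi_degree ty B, h, map_zero]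
      · rintro rfl
        exact ⟨hDD _ (by simp), tyi_empty ty⟩
    show ∑ B ∈ DD.filter (fun B => tyi ty B = 0), FB B = 1
    rw [h1, Finset.sum_singleton, hFB0]
  · intro a ha
    refine Finset.sum_eq_zero fun B hB => ?_
    exfalso
    rw [Finset.mem_filter] at hB
    exact ha (Finset.mem_image.mpr ⟨B, hB.1, hB.2⟩)
  · intro a ha j
    obtain ⟨B, hB, _⟩ := Finset.exists_ne_zero_of_sum_ne_zero ha
    rw [Finset.mem_filter] at hB
    rw [← hB.2]
    refine le_trans ?_ (hcard j)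
    exact_mod_cast H284.tyi_le ty B j
  · intro a ha
    rw [hFz a ha, euler hMC a]
    refine Finset.sum_congr rfl fun x hx => ?_
    rw [HasAntidiagonal.mem_antidiagonal] at hx
    rw [hFz x.2]
    have : a.degree = x.1.degree + x.2.degree := by rw [← hx, map_add]
    omega
  · intro r hr0 hr1 a
    have h1 : |F a| * mo r a ≤ ∑ B ∈ DD.filter (fun B => tyi ty B = a),
        |FB B| * ∏ i ∈ B, r (ty i) := by
      refine (mul_le_mul_of_nonneg_right (Finset.abs_sum_le_sum_abs _ _) (mo_nonneg hr0 a)).trans ?_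
      rw [Finset.sum_mul]
      refine Finset.sum_le_sum fun B hB => ?_
      rw [prod_ty, (Finset.mem_filter.mp hB).2]
    refine h1.trans (le_trans ?_ (hF1 r hr0 hr1))
    refine Finset.sum_le_sum_of_subset_of_nonneg (Finset.filter_subset _ _) fun B _ _ => ?_
    exact mul_nonneg (abs_nonneg _) (Finset.prod_nonneg fun i _ => hr0 _)
  · intro r hr0
    exact T12_bound (co w) _ hP1 hP2 r hr0
  · intro m hm hmT hmb
    refine hD m ?_ hmb
    by_contra h
    push Not at h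
    exact hmT (mem_T12 hm (by omega))

end Vale.Agent.P042.H984
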