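import Vale.Agent.P042.H384.Interp

/-!
# The interpolation step with capped radii (helper984, seam H1 x H2 of `P042`)

Same as `H384.interp`, but the bound `hF1` for high orders is only needed for radii
`r j ≤ rho j`, where `rho j ≥ (a j) ^ cr` for the orders `a` of total degree at most `b0`
(for instance `rho j = min (n_j ^ cr) (b0 ^ cr)`), with the weaker right hand side
`B j * (r j + r j ^ 2)`.  The tail `a.degree > b0` is controlled by ONE radius `exp 3`.
-/

set_option linter.unusedSectionVars false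

namespace Vale.Agent.P042.H984

open Finset Vale.Agent.P042.H384

variable {J : Type*} [Fintype J] [DecidableEq J]

/-- the exponential `exp (-W_T)`, all orders -/
lemma bound_E {T : Finset (J →₀ ℕ)} {W : (J →₀ ℕ) → ℝ} {B : J → ℝ} {cr : ℝ}
    (hT0 : 0 ∉ T)
    (hT : ∀ r : J → ℝ, (∀ j, 0 ≤ r j) →
      ∑ m ∈ T, |W m| * mo r m ≤ ∑ j, B j * (r j + r j ^ 2))
    (hB : ∀ j, 1 ≤ B j) (hcr0 : 0 < cr) (hcr : cr ≤ 1 / 2) (u : J →₀ ℕ) :
    |Ex T (fun m => -W m) u| ≤
      Real.exp (0 + ∑ j, ((u j : ℝ) * (Real.log (B j) + 2) - cr * xl (u j))) := by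
  classical
  have hBpos : ∀ j, 0 < B j := fun j => lt_of_lt_of_le one_pos (hB j)
  have hlB : ∀ j, 0 ≤ Real.log (B j) := fun j => Real.log_nonneg (hB j)
  have hl2 : Real.log 2 ≤ 1 := by
    have := Real.log_two_lt_d9; linarith
  have hl20 : 0 < Real.log 2 := Real.log_pos (by norm_num)
  set r : J → ℝ := fun j => Real.sqrt (u j : ℝ) / (2 * B j) with hr
  have hr0 : ∀ j, 0 ≤ r j := fun j => div_nonneg (Real.sqrt_nonneg _)
    (by have := hBpos j; positivity)
  have hsq : ∀ j, Real.sqrt (u j : ℝ) ≤ u j := by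
    intro j
    rcases Nat.eq_zero_or_pos (u j) with h | h
    · simp [h]
    · have h1 : (1 : ℝ) ≤ u j := by exact_mod_cast h
      rw [Real.sqrt_le_left (by linarith)]
      nlinarith
  have hr2 : ∀ j, B j * (r j + r j ^ 2) ≤ (u j : ℝ) * (3 / 4) := by
    intro j
    have hb := hB j
    have hbp := hBpos j
    have e1 : B j * (r j + r j ^ 2) = Real.sqrt (u j : ℝ) / 2 + (u j : ℝ) / (4 * B j) := by
      have h2 : r j ^ 2 = (u j : ℝ) / (4 * B j ^ 2) := by
        rw [hr]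
        simp only
        rw [div_pow, Real.sq_sqrt (Nat.cast_nonneg _)]
        ring
      rw [h2, hr]
      simp only
      field_simp
    rw [e1]
    have h3 : (u j : ℝ) / (4 * B j) ≤ (u j : ℝ) / 4 := by
      refine div_le_div_of_nonneg_left (Nat.cast_nonneg _) (by norm_num) (by linarith)
    linarith [hsq j]
  have hrb := radius_bound (f := Ex T (fun m => -W m) u) (C := 0) (cr := cr) (r := r)
    (d := fun j => (u j : ℝ) * (3 / 4)) (g := fun j => Real.log (B j) + 1) u ?_ ?_ ?_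
  · refine hrb.trans (Real.exp_le_exp.mpr ?_)
    refine add_le_add le_rfl (Finset.sum_le_sum fun j _ => ?_)
    have : (0 : ℝ) ≤ u j := Nat.cast_nonneg _
    nlinarith
  · intro j hj
    have : (0 : ℝ) < u j := by exact_mod_cast Nat.pos_of_ne_zero hj
    exact div_pos (Real.sqrt_pos.mpr this) (by have := hBpos j; positivity)
  · have h1 := sum_abs_Ex_le hT0 (fun m => -W m) hr0 {u}
    rw [Finset.sum_singleton] at h1
    refine h1.trans (Real.exp_le_exp.mpr ?_)
    have h2 := hT r hr0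
    simp only [abs_neg]
    refine h2.trans ?_
    rw [zero_add]
    exact Finset.sum_le_sum fun j _ => hr2 j
  · intro j hj
    have huj : (0 : ℝ) < u j := by exact_mod_cast Nat.pos_of_ne_zero hj
    have huj1 : (1 : ℝ) ≤ u j := by exact_mod_cast Nat.pos_of_ne_zero hj
    have hlu : 0 ≤ Real.log (u j) := Real.log_nonneg huj1
    have hrr : r j = Real.sqrt (u j : ℝ) / (2 * B j) := rfl
    rw [hrr, Real.log_div (Real.sqrt_pos.mpr huj).ne' (by have := hBpos j; positivity),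
      Real.log_sqrt huj.le, Real.log_mul two_ne_zero (hBpos j).ne']
    nlinarith

/-- orders `≤ b0`, capped radii -/
lemma bound_high2 {T : Finset (J →₀ ℕ)} {F W : (J →₀ ℕ) → ℝ} {b0 : ℕ} {B rho : J → ℝ}
    {C1 cr : ℝ} (hT0 : 0 ∉ T)
    (hrho : ∀ j, Real.exp 3 ≤ rho j)
    (hFr : ∀ a : J →₀ ℕ, F a ≠ 0 → a.degree ≤ b0 → ∀ j, a j ≠ 0 →
      cr * Real.log (a j) ≤ Real.log (rho j))
    (hF1 : ∀ r : J → ℝ, (∀ j, 0 ≤ r j) → (∀ j, r j ≤ rho j) →
      ∀ a : J →₀ ℕ, |F a| * mo r a ≤ Real.exp (C1 + ∑ j, B j * (r j + r j ^ 2)))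
    (hT : ∀ r : J → ℝ, (∀ j, 0 ≤ r j) →
      ∑ m ∈ T, |W m| * mo r m ≤ ∑ j, B j * (r j + r j ^ 2))
    (hB : ∀ j, 1 ≤ B j) (hcr0 : 0 < cr) (hcr : cr ≤ 1 / 2) (a : J →₀ ℕ)
    (hab : a.degree ≤ b0) :
    |Xq T F W a| ≤ Real.exp (C1 + ∑ j, ((a j : ℝ) * (Real.log (B j) + 4) - cr * xl (a j))) := by
  classical
  have hBpos : ∀ j, 0 < B j := fun j => lt_of_lt_of_le one_pos (hB j)
  have hlB : ∀ j, 0 ≤ Real.log (B j) := fun j => Real.log_nonneg (hB j)
  have hrhop : ∀ j, 0 < rho j := fun j => (Real.exp_pos 3).trans_le (hrho j)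
  have hl2 : Real.log 2 ≤ 1 := by
    have := Real.log_two_lt_d9; linarith
  have hl20 : 0 < Real.log 2 := Real.log_pos (by norm_num)
  -- bound for `F`
  have bF : ∀ m : J →₀ ℕ, m.degree ≤ b0 →
      |F m| ≤ Real.exp (C1 + ∑ j, ((m j : ℝ) * (Real.log (B j) + 2) - cr * xl (m j))) := by
    intro m hmb
    by_cases hm : F m = 0
    · rw [hm, abs_zero]; exact (Real.exp_pos _).le
    set s : J → ℝ := fun j => Real.sqrt (m j : ℝ) / (2 * B j) with hs
    have hs0 : ∀ j, 0 ≤ s j := fun j => div_nonneg (Real.sqrt_nonneg _)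
      (by have := hBpos j; positivity)
    have hsq : ∀ j, Real.sqrt (m j : ℝ) ≤ m j := by
      intro j
      rcases Nat.eq_zero_or_pos (m j) with h | h
      · simp [h]
      · have h1 : (1 : ℝ) ≤ m j := by exact_mod_cast h
        rw [Real.sqrt_le_left (by linarith)]
        nlinarith
    have hs2 : ∀ j, B j * (s j + s j ^ 2) ≤ (m j : ℝ) * (3 / 4) := by
      intro j
      have hb := hB j
      have hbp := hBpos j
      have e1 : B j * (s j + s j ^ 2) = Real.sqrt (m j : ℝ) / 2 + (m j : ℝ) / (4 * B j) := by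
        have h2 : s j ^ 2 = (m j : ℝ) / (4 * B j ^ 2) := by
          rw [hs]
          simp only
          rw [div_pow, Real.sq_sqrt (Nat.cast_nonneg _)]
          ring
        rw [h2, hs]
        simp only
        field_simp
      rw [e1]
      have h3 : (m j : ℝ) / (4 * B j) ≤ (m j : ℝ) / 4 := by
        refine div_le_div_of_nonneg_left (Nat.cast_nonneg _) (by norm_num) (by linarith)
      linarith [hsq j]
    set r : J → ℝ := fun j => min (s j) (rho j) with hr
    have hr0 : ∀ j, 0 ≤ r j := fun j => le_min (hs0 j) (hrhop j).le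
    have hr1 : ∀ j, r j ≤ rho j := fun j => min_le_right _ _
    have hr2 : ∀ j, B j * (r j + r j ^ 2) ≤ (m j : ℝ) * (3 / 4) := by
      intro j
      refine le_trans (mul_le_mul_of_nonneg_left ?_ (hBpos j).le) (hs2 j)
      have h1 : r j ≤ s j := min_le_left _ _
      exact add_le_add h1 (pow_le_pow_left₀ (hr0 j) h1 2)
    have hrb := radius_bound (f := F m) (C := C1) (cr := cr) (r := r)
      (d := fun j => (m j : ℝ) * (3 / 4)) (g := fun j => Real.log (B j) + 1) m ?_ ?_ ?_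
    · refine hrb.trans (Real.exp_le_exp.mpr ?_)
      refine add_le_add le_rfl (Finset.sum_le_sum fun j _ => ?_)
      have : (0 : ℝ) ≤ m j := Nat.cast_nonneg _
      nlinarith
    · intro j hj
      have : (0 : ℝ) < m j := by exact_mod_cast Nat.pos_of_ne_zero hj
      exact lt_min (div_pos (Real.sqrt_pos.mpr this) (by have := hBpos j; positivity)) (hrhop j)
    · refine (hF1 r hr0 hr1 m).trans (Real.exp_le_exp.mpr ?_)
      exact add_le_add le_rfl (Finset.sum_le_sum fun j _ => hr2 j)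
    · intro j hj
      have hmj : (0 : ℝ) < m j := by exact_mod_cast Nat.pos_of_ne_zero hj
      have hmj1 : (1 : ℝ) ≤ m j := by exact_mod_cast Nat.pos_of_ne_zero hj
      have hlm : 0 ≤ Real.log (m j) := Real.log_nonneg hmj1
      have hrr : r j = min (s j) (rho j) := rfl
      have hss : s j = Real.sqrt (m j : ℝ) / (2 * B j) := rfl
      rcases min_choice (s j) (rho j) with h | h
      · rw [hrr, h, hss, Real.log_div (Real.sqrt_pos.mpr hmj).ne'
          (by have := hBpos j; positivity), Real.log_sqrt hmj.le,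
          Real.log_mul two_ne_zero (hBpos j).ne']
        have := hlB j
        nlinarith
      · rw [hrr, h]
        have := hlB j
        have := hFr m hm hmb j hj
        linarith
  -- convolution
  unfold Xq
  refine (Finset.abs_sum_le_sum_abs _ _).trans ?_
  have hterm : ∀ x ∈ HasAntidiagonal.antidiagonal a,
      |F x.1 * Ex T (fun m => -W m) x.2|
        ≤ Real.exp (C1 + ∑ j, ((a j : ℝ) * (Real.log (B j) + 3) - cr * xl (a j))) := by
    intro x hx
    rw [HasAntidiagonal.mem_antidiagonal] at hx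
    have hdeg : x.1.degree ≤ b0 := by
      have : a.degree = x.1.degree + x.2.degree := by rw [← hx, map_add]
      omega
    rw [abs_mul]
    refine (mul_le_mul (bF x.1 hdeg) (bound_E hT0 hT hB hcr0 hcr x.2) (abs_nonneg _)
      (Real.exp_pos _).le).trans ?_
    rw [← Real.exp_add]
    refine Real.exp_le_exp.mpr ?_
    rw [zero_add, add_assoc, ← Finset.sum_add_distrib]
    refine add_le_add le_rfl (Finset.sum_le_sum fun j _ => ?_)
    have h1 := le_xl_add (x.1 j) (x.2 j)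
    have h2 : a j = x.1 j + x.2 j := by rw [← hx]; rfl
    rw [h2]
    push_cast
    have h3 : (0 : ℝ) ≤ x.1 j := Nat.cast_nonneg _
    have h4 : (0 : ℝ) ≤ x.2 j := Nat.cast_nonneg _
    have h5 := mul_le_mul_of_nonneg_left h1 hcr0.le
    have h6 : cr * (((x.1 j : ℝ) + x.2 j) * Real.log 2) ≤ (x.1 j : ℝ) + x.2 j := by
      have h7 : 0 ≤ (x.1 j : ℝ) + x.2 j := by linarith
      have h8 : ((x.1 j : ℝ) + x.2 j) * Real.log 2 ≤ (x.1 j : ℝ) + x.2 j := by nlinarith
      have h9 : 0 ≤ ((x.1 j : ℝ) + x.2 j) * Real.log 2 := by positivity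
      nlinarith
    nlinarith
  refine (Finset.sum_le_card_nsmul _ _ _ hterm).trans ?_
  rw [nsmul_eq_mul]
  refine (mul_le_mul_of_nonneg_right (card_antidiagonal_le a) (Real.exp_pos _).le).trans ?_
  rw [← Real.exp_add]
  refine Real.exp_le_exp.mpr ?_
  rw [add_left_comm, ← Finset.sum_add_distrib]
  refine add_le_add le_rfl (Finset.sum_le_sum fun j _ => ?_)
  have : (0 : ℝ) ≤ a j := Nat.cast_nonneg _
  nlinarith

/-- all orders, one radius `exp 3` -/
lemma bound_tail {T : Finset (J →₀ ℕ)} {F W : (J →₀ ℕ) → ℝ} {B rho : J → ℝ} {C1 : ℝ}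
    (hT0 : 0 ∉ T)
    (hrho : ∀ j, Real.exp 3 ≤ rho j)
    (hF1 : ∀ r : J → ℝ, (∀ j, 0 ≤ r j) → (∀ j, r j ≤ rho j) →
      ∀ a : J →₀ ℕ, |F a| * mo r a ≤ Real.exp (C1 + ∑ j, B j * (r j + r j ^ 2)))
    (hT : ∀ r : J → ℝ, (∀ j, 0 ≤ r j) →
      ∑ m ∈ T, |W m| * mo r m ≤ ∑ j, B j * (r j + r j ^ 2))
    (hB : ∀ j, 1 ≤ B j) (a : J →₀ ℕ) :
    |Xq T F W a| ≤ Real.exp (C1 + 900 * ∑ j, B j - 2 * (a.degree : ℝ)) := by
  classical
  set r : J → ℝ := fun _ => Real.exp 3 with hr
  have hr0 : ∀ j, 0 ≤ r j := fun j => (Real.exp_pos _).le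
  have hB0 : 0 ≤ ∑ j, B j := Finset.sum_nonneg fun j _ => by linarith [hB j]
  have he1 : Real.exp 1 < 2.7182818286 := Real.exp_one_lt_d9
  have he3 : Real.exp 3 ≤ 20.1 := by
    have h1 : Real.exp 3 = Real.exp 1 ^ 3 := by rw [← Real.exp_nat_mul]; norm_num
    rw [h1]
    calc Real.exp 1 ^ 3 ≤ (2.7182818286 : ℝ) ^ 3 :=
          pow_le_pow_left₀ (Real.exp_pos _).le he1.le 3
      _ ≤ 20.1 := by norm_num
  have he3p := Real.exp_pos 3
  have hsum : ∑ j, B j * (r j + r j ^ 2) ≤ 450 * ∑ j, B j := by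
    rw [Finset.mul_sum]
    refine Finset.sum_le_sum fun j _ => ?_
    have h1 : r j + r j ^ 2 ≤ 450 := by
      show Real.exp 3 + Real.exp 3 ^ 2 ≤ 450
      nlinarith
    have := hB j
    nlinarith
  have hmo : ∀ b : J →₀ ℕ, mo r b = Real.exp (3 * (b.degree : ℝ)) := by
    intro b
    unfold mo
    rw [Finsupp.degree_eq_sum]
    push_cast
    rw [Finset.mul_sum, Real.exp_sum]
    refine Finset.prod_congr rfl fun j _ => ?_
    rw [hr, ← Real.exp_nat_mul]
    congr 1; ring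
  have hFb : ∀ m : J →₀ ℕ, |F m| ≤ Real.exp (C1 + 450 * ∑ j, B j - 3 * (m.degree : ℝ)) := by
    intro m
    have h1 := hF1 r hr0 (fun j => hrho j) m
    rw [hmo] at h1
    have h2 : |F m| ≤ Real.exp (C1 + ∑ j, B j * (r j + r j ^ 2))
        / Real.exp (3 * (m.degree : ℝ)) := by
      rwa [le_div_iff₀ (Real.exp_pos _)]
    refine h2.trans ?_
    rw [← Real.exp_sub]
    exact Real.exp_le_exp.mpr (by linarith)
  have hEb : ∀ u : J →₀ ℕ, |Ex T (fun m => -W m) u|
      ≤ Real.exp (450 * ∑ j, B j - 3 * (u.degree : ℝ)) := by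
    intro u
    have h1 := sum_abs_Ex_le hT0 (fun m => -W m) hr0 {u}
    rw [Finset.sum_singleton, hmo] at h1
    have h2 := hT r hr0
    simp only [abs_neg] at h1
    have h3 : |Ex T (fun m => -W m) u| ≤ Real.exp (450 * ∑ j, B j)
        / Real.exp (3 * (u.degree : ℝ)) := by
      rw [le_div_iff₀ (Real.exp_pos _)]
      exact h1.trans (Real.exp_le_exp.mpr (h2.trans hsum))
    refine h3.trans ?_
    rw [← Real.exp_sub]
  unfold Xq
  refine (Finset.abs_sum_le_sum_abs _ _).trans ?_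
  have hterm : ∀ x ∈ HasAntidiagonal.antidiagonal a,
      |F x.1 * Ex T (fun m => -W m) x.2|
        ≤ Real.exp (C1 + 900 * ∑ j, B j - 3 * (a.degree : ℝ)) := by
    intro x hx
    rw [HasAntidiagonal.mem_antidiagonal] at hx
    have hd : (a.degree : ℝ) = x.1.degree + x.2.degree := by
      rw [← hx, map_add]; push_cast; rfl
    rw [abs_mul]
    refine (mul_le_mul (hFb x.1) (hEb x.2) (abs_nonneg _) (Real.exp_pos _).le).trans ?_
    rw [← Real.exp_add, hd]
    exact Real.exp_le_exp.mpr (by linarith)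
  refine (Finset.sum_le_card_nsmul _ _ _ hterm).trans ?_
  rw [nsmul_eq_mul]
  refine (mul_le_mul_of_nonneg_right (card_antidiagonal_le a) (Real.exp_pos _).le).trans ?_
  rw [← Real.exp_add]
  refine Real.exp_le_exp.mpr ?_
  have hl2 : Real.log 2 ≤ 1 := by
    have := Real.log_two_lt_d9; linarith
  have h1 : ∑ j, (a j : ℝ) * Real.log 2 ≤ a.degree := by
    rw [← Finset.sum_mul]
    have h2 : (a.degree : ℝ) = ∑ j, (a j : ℝ) := by
      rw [Finsupp.degree_eq_sum]; push_cast; rfl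
    rw [h2]
    have h3 : (0 : ℝ) ≤ ∑ j, (a j : ℝ) := Finset.sum_nonneg fun j _ => Nat.cast_nonneg _
    nlinarith
  linarith

/-- the geometric mean of the two coefficient bounds, with an extra loss `exp G` in the low
order bound -/
lemma geo_mean {x : ℝ} {a : J →₀ ℕ} {ell B : J → ℝ} {C1 G k1 c3 cr ph : ℝ}
    (h1 : |x| ≤ Real.exp (G + (k1 * Lf a - c3 * lf ell a)))
    (h2 : |x| ≤ Real.exp (C1 + ∑ j, ((a j : ℝ) * (Real.log (B j) + 4) - cr * xl (a j))))
    (hB : ∀ j, 1 ≤ B j) (hC1 : 0 ≤ C1) (hph0 : 0 ≤ ph) (hph1 : ph ≤ 1)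
    (hph : ph * k1 ≤ (1 - ph) * cr) :
    |x| ≤ Real.exp (ph * G + C1) * mo (fun j => Real.exp (Real.log (B j) + 4
      - ph * c3 * ell j)) a := by
  classical
  have hlB : ∀ j, 0 ≤ Real.log (B j) := fun j => Real.log_nonneg (hB j)
  set p := G + (k1 * Lf a - c3 * lf ell a) with hp
  set q := C1 + ∑ j, ((a j : ℝ) * (Real.log (B j) + 4) - cr * xl (a j)) with hq
  have h3 : |x| ≤ Real.exp (ph * p + (1 - ph) * q) := by
    rcases le_total p q with hpq | hpq
    · refine h1.trans (Real.exp_le_exp.mpr ?_)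
      nlinarith
    · refine h2.trans (Real.exp_le_exp.mpr ?_)
      nlinarith
  refine h3.trans ?_
  have h4 : mo (fun j => Real.exp (Real.log (B j) + 4 - ph * c3 * ell j)) a
      = Real.exp (∑ j, (a j : ℝ) * (Real.log (B j) + 4 - ph * c3 * ell j)) := by
    unfold mo
    rw [Real.exp_sum]
    refine Finset.prod_congr rfl fun j _ => ?_
    rw [Real.exp_nat_mul]
  rw [h4, ← Real.exp_add]
  refine Real.exp_le_exp.mpr ?_
  have h5 : ∑ j, (a j : ℝ) * (Real.log (B j) + 4 - ph * c3 * ell j)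
      = (∑ j, (a j : ℝ) * (Real.log (B j) + 4)) - ph * c3 * lf ell a := by
    unfold lf
    rw [Finset.mul_sum, ← Finset.sum_sub_distrib]
    refine Finset.sum_congr rfl fun j _ => ?_
    ring
  have h6 : q = C1 + (∑ j, (a j : ℝ) * (Real.log (B j) + 4)) - cr * Lf a := by
    rw [hq, Finset.sum_sub_distrib]
    unfold Lf
    rw [Finset.mul_sum]
    ring
  have h7 : 0 ≤ ∑ j, (a j : ℝ) * (Real.log (B j) + 4) :=
    Finset.sum_nonneg fun j _ => mul_nonneg (Nat.cast_nonneg _) (by linarith [hlB j])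
  have h8 : 0 ≤ Lf a := Finset.sum_nonneg fun j _ => xl_nonneg _
  rw [h5, h6, hp]
  have h9 : (ph * k1 - (1 - ph) * cr) * Lf a ≤ 0 :=
    mul_nonpos_of_nonpos_of_nonneg (by linarith) h8
  have h10 : 0 ≤ ph * C1 := mul_nonneg hph0 hC1
  have h11 : 0 ≤ ph * ∑ j, (a j : ℝ) * (Real.log (B j) + 4) := mul_nonneg hph0 h7
  nlinarith

/-- low orders of the quotient `Xq` -/
lemma bound_low2 {T : Finset (J →₀ ℕ)} {F W : (J →₀ ℕ) → ℝ} {b0 : ℕ} {ell : J → ℝ}
    {k1 c2 c3 : ℝ} (hF0 : F 0 = 1)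
    (hE : ∀ a : J →₀ ℕ, a.degree ≤ b0 → (a.degree : ℝ) * F a
      = ∑ x ∈ HasAntidiagonal.antidiagonal a, (x.1.degree : ℝ) * W x.1 * F x.2)
    (hT0 : 0 ∉ T)
    (hD : ∀ m : J →₀ ℕ, m ≠ 0 → m ∉ T → m.degree ≤ b0 →
      |W m| ≤ Real.exp (k1 * Lf m - c2 * lf ell m))
    (hk1 : 0 ≤ k1) (hs1 : ∑ j, Real.exp (-((c2 - c3) * ell j)) ≤ 1 / 4)
    (a : J →₀ ℕ) (ha : a.degree ≤ b0) :
    |Xq T F W a| ≤ Real.exp (k1 * Lf a - c3 * lf ell a) := by
  refine bound_low (V := fun m => if m ∈ T then 0 else W m) (c2 := c2) (Xq_zero hF0) ?_ hk1 ?_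
    hs1 a.degree a rfl ha
  · intro b hb
    rw [euler_Xq hT0 hE b hb]
    refine Finset.sum_congr rfl fun x _ => ?_
    split_ifs <;> simp
  · intro m hm hmb
    by_cases hmT : m ∈ T
    · simp only [if_pos hmT, abs_zero]; exact (Real.exp_pos _).le
    · simp only [if_neg hmT]; exact hD m hm hmT hmb

/-- `∑ F = (∑' Xq) exp (∑ W_T)` -/
lemma prod_formula {T S : Finset (J →₀ ℕ)} {F W : (J →₀ ℕ) → ℝ} (hT0 : 0 ∉ T)
    (hFS : ∀ a, a ∉ S → F a = 0) :
    ∑ a ∈ S, F a = (∑' a, Xq T F W a) * Real.exp (∑ m ∈ T, W m) := by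
  classical
  have hsF : HasSum F (∑ a ∈ S, F a) := hasSum_sum_of_ne_finset_zero hFS
  have hsE := summable_abs_Ex hT0 (fun m => -W m)
  have hsFa : Summable fun a => |F a| :=
    (hasSum_sum_of_ne_finset_zero (s := S) (fun a ha => by rw [hFS a ha, abs_zero])).summable
  have hprod : (∑' a, F a) * ∑' a, Ex T (fun m => -W m) a = ∑' a, Xq T F W a := by
    refine hsF.summable.tsum_mul_tsum_eq_tsum_sum_antidiagonal hsE.of_abs ?_
    refine (hsFa.mul_of_nonneg hsE (fun _ => abs_nonneg _) (fun _ => abs_nonneg _)).of_norm_bounded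
      fun x => ?_
    rw [Real.norm_eq_abs, abs_mul]
  rw [hsF.tsum_eq, tsum_Ex hT0, Finset.sum_neg_distrib] at hprod
  rw [← hprod, mul_assoc, ← Real.exp_add]
  simp

/-- the sum over the high orders -/
lemma sum_high_le {b0 : ℕ} {M : ℝ} {X : (J →₀ ℕ) → ℝ}
    (hX : ∀ a : J →₀ ℕ, b0 < a.degree → |X a| ≤ Real.exp (M - 2 * (a.degree : ℝ)))
    (A : Finset (J →₀ ℕ)) (hA : ∀ a ∈ A, b0 < a.degree) :
    ∑ a ∈ A, |X a| ≤ Real.exp (M + Fintype.card J - b0) := by
  classical
  have h4 : ∀ a : J →₀ ℕ, mo (fun _ : J => Real.exp (-1)) a = Real.exp (-(a.degree : ℝ)) := by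
    intro a
    unfold mo
    rw [Finsupp.degree_eq_sum]
    push_cast
    rw [← Finset.sum_neg_distrib, Real.exp_sum]
    refine Finset.prod_congr rfl fun j _ => ?_
    rw [← Real.exp_nat_mul]
    congr 1; ring
  have h5 : ∀ a ∈ A, |X a| ≤ Real.exp (M - b0) * mo (fun _ : J => Real.exp (-1)) a := by
    intro a ha
    refine (hX a (hA a ha)).trans ?_
    rw [h4, ← Real.exp_add]
    refine Real.exp_le_exp.mpr ?_
    have h7 : (b0 : ℝ) ≤ a.degree := by exact_mod_cast (hA a ha).le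
    linarith
  refine (Finset.sum_le_sum h5).trans ?_
  rw [← Finset.mul_sum]
  have hexp1 : Real.exp (-1) < 1 := by rw [Real.exp_lt_one_iff]; norm_num
  have e2 := sum_mo_le_prod (y := fun _ : J => Real.exp (-1)) (fun j => (Real.exp_pos _).le)
    (fun j => hexp1) A
  have hlin : (2 : ℝ) ≤ Real.exp 1 := by
    have := Real.add_one_le_exp (1 : ℝ); linarith
  have e3 : (1 - Real.exp (-1))⁻¹ ≤ Real.exp 1 := by
    have h5 : Real.exp 1 * Real.exp (-1) = 1 := by rw [← Real.exp_add]; simp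
    rw [inv_le_comm₀ (by linarith) (Real.exp_pos _), ← Real.exp_neg]
    have h6 := Real.exp_pos (-1)
    nlinarith
  have e4 : ∏ _j : J, (1 - Real.exp (-1))⁻¹ ≤ Real.exp (Fintype.card J) := by
    rw [Finset.prod_const, Finset.card_univ]
    refine (pow_le_pow_left₀ (by rw [inv_nonneg]; linarith) e3 _).trans (le_of_eq ?_)
    rw [← Real.exp_nat_mul, mul_one]
  calc Real.exp (M - b0) * ∑ a ∈ A, mo (fun _ : J => Real.exp (-1)) a
      ≤ Real.exp (M - b0) * Real.exp (Fintype.card J) :=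
        mul_le_mul_of_nonneg_left (e2.trans e4) (Real.exp_pos _).le
    _ = Real.exp (M + Fintype.card J - b0) := by rw [← Real.exp_add]; congr 1; ring


end Vale.Agent.P042.H984
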