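import Vale.Agent.P042.H984.IntA

/-!
# The interpolation theorem with capped radii (helper984, seam H1 x H2 of `P042`)
-/

set_option linter.unusedSectionVars false

namespace Vale.Agent.P042.H984

open Finset Vale.Agent.P042.H384

variable {J : Type*} [Fintype J] [DecidableEq J]

/-- **the interpolation theorem with capped radii** -/
theorem interp2 (F W : (J →₀ ℕ) → ℝ) (S T : Finset (J →₀ ℕ)) (b0 : ℕ) (ell B rho : J → ℝ)
    (C1 k1 c2 c3 cr ph : ℝ)
    (hF0 : F 0 = 1) (hFS : ∀ a, a ∉ S → F a = 0)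
    (hrho : ∀ j, Real.exp 3 ≤ rho j)
    (hFr : ∀ a : J →₀ ℕ, F a ≠ 0 → a.degree ≤ b0 → ∀ j, a j ≠ 0 →
      cr * Real.log (a j) ≤ Real.log (rho j))
    (hE : ∀ a : J →₀ ℕ, a.degree ≤ b0 → (a.degree : ℝ) * F a
      = ∑ x ∈ HasAntidiagonal.antidiagonal a, (x.1.degree : ℝ) * W x.1 * F x.2)
    (hT0 : 0 ∉ T)
    (hF1 : ∀ r : J → ℝ, (∀ j, 0 ≤ r j) → (∀ j, r j ≤ rho j) →
      ∀ a : J →₀ ℕ, |F a| * mo r a ≤ Real.exp (C1 + ∑ j, B j * (r j + r j ^ 2)))
    (hT : ∀ r : J → ℝ, (∀ j, 0 ≤ r j) →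
      ∑ m ∈ T, |W m| * mo r m ≤ ∑ j, B j * (r j + r j ^ 2))
    (hD : ∀ m : J →₀ ℕ, m ≠ 0 → m ∉ T → m.degree ≤ b0 →
      |W m| ≤ Real.exp (k1 * Lf m - c2 * lf ell m))
    (hB : ∀ j, 1 ≤ B j) (hC1 : 0 ≤ C1)
    (hcr0 : 0 < cr) (hcr : cr ≤ 1 / 2) (hk1 : 0 ≤ k1) (hph0 : 0 ≤ ph) (hph1 : ph ≤ 1)
    (hph : ph * k1 ≤ (1 - ph) * cr)
    (hs1 : ∑ j, Real.exp (-((c2 - c3) * ell j)) ≤ 1 / 4)
    (hs2 : ∑ j, Real.exp (Real.log (B j) + 4 - ph * c3 * ell j) ≤ Real.exp (-C1) / 32)
    (hs3 : C1 + 900 * ∑ j, B j + Fintype.card J + 3 ≤ b0) :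
    1 / 2 * Real.exp (-∑ m ∈ T, |W m|) ≤ ∑ a ∈ S, F a := by
  classical
  have hlB : ∀ j, 0 ≤ Real.log (B j) := fun j => Real.log_nonneg (hB j)
  set X := Xq T F W with hXdef
  have hX0 : X 0 = 1 := Xq_zero hF0
  -- low orders
  have hlow : ∀ a : J →₀ ℕ, a.degree ≤ b0 → |X a| ≤ Real.exp (k1 * Lf a - c3 * lf ell a) := by
    intro a ha
    refine bound_low (V := fun m => if m ∈ T then 0 else W m) (c2 := c2) hX0 ?_ hk1 ?_ hs1
      a.degree a rfl ha
    · intro b hb
      rw [hXdef, euler_Xq hT0 hE b hb]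
      refine Finset.sum_congr rfl fun x _ => ?_
      split_ifs <;> simp
    · intro m hm hmb
      by_cases hmT : m ∈ T
      · simp only [if_pos hmT, abs_zero]; exact (Real.exp_pos _).le
      · simp only [if_neg hmT]; exact hD m hm hmT hmb
  have hhigh : ∀ a : J →₀ ℕ, a.degree ≤ b0 →
      |X a| ≤ Real.exp (C1 + ∑ j, ((a j : ℝ) * (Real.log (B j) + 4) - cr * xl (a j))) :=
    fun a ha => bound_high2 hT0 hrho hFr hF1 hT hB hcr0 hcr a ha
  -- geometric mean
  set y : J → ℝ := fun j => Real.exp (Real.log (B j) + 4 - ph * c3 * ell j) with hy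
  have hmid : ∀ a : J →₀ ℕ, a.degree ≤ b0 → |X a| ≤ Real.exp C1 * mo y a := by
    intro a ha
    have h1 := hlow a ha
    have h2 := hhigh a ha
    set p := k1 * Lf a - c3 * lf ell a with hp
    set q := C1 + ∑ j, ((a j : ℝ) * (Real.log (B j) + 4) - cr * xl (a j)) with hq
    have h3 : |X a| ≤ Real.exp (ph * p + (1 - ph) * q) := by
      rcases le_total p q with hpq | hpq
      · refine h1.trans (Real.exp_le_exp.mpr ?_)
        nlinarith
      · refine h2.trans (Real.exp_le_exp.mpr ?_)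
        nlinarith
    refine h3.trans ?_
    have h4 : mo y a = Real.exp (∑ j, (a j : ℝ) * (Real.log (B j) + 4 - ph * c3 * ell j)) := by
      unfold mo
      rw [Real.exp_sum]
      refine Finset.prod_congr rfl fun j _ => ?_
      rw [hy, Real.exp_nat_mul]
    rw [h4, ← Real.exp_add]
    refine Real.exp_le_exp.mpr ?_
    have h5 : ∑ j, (a j : ℝ) * (Real.log (B j) + 4 - ph * c3 * ell j)
        = (∑ j, (a j : ℝ) * (Real.log (B j) + 4)) - ph * c3 * lf ell a := by
      unfold lf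
      rw [Finset.mul_sum, ← Finset.sum_sub_distrib]
      refine Finset.sum_congr rfl fun j _ => ?_
      ring
    have h6 : q = C1 + (∑ j, (a j : ℝ) * (Real.log (B j) + 4)) - cr * Lf a := by
      rw [hq, Finset.sum_sub_distrib]
      unfold Lf
      rw [Finset.mul_sum]
      ring
    have h7 : 0 ≤ ∑ j, (a j : ℝ) * (Real.log (B j) + 4) :=
      Finset.sum_nonneg fun j _ => mul_nonneg (Nat.cast_nonneg _) (by linarith [hlB j])
    have h8 : 0 ≤ Lf a := Finset.sum_nonneg fun j _ => xl_nonneg _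
    rw [h5, h6, hp]
    have h9 : (ph * k1 - (1 - ph) * cr) * Lf a ≤ 0 :=
      mul_nonpos_of_nonpos_of_nonneg (by linarith) h8
    have h10 : 0 ≤ ph * C1 := mul_nonneg hph0 hC1
    have h11 : 0 ≤ ph * ∑ j, (a j : ℝ) * (Real.log (B j) + 4) := mul_nonneg hph0 h7
    nlinarith
  -- high orders
  set M : ℝ := 900 * ∑ j, B j with hM
  have hbig : ∀ a : J →₀ ℕ, b0 < a.degree →
      |X a| ≤ Real.exp (C1 + M - b0) * mo (fun _ => Real.exp (-1)) a := by
    intro a ha
    refine (bound_tail hT0 hrho hF1 hT hB a).trans ?_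
    have h4 : mo (fun _ : J => Real.exp (-1)) a = Real.exp (-(a.degree : ℝ)) := by
      unfold mo
      rw [Finsupp.degree_eq_sum]
      push_cast
      rw [← Finset.sum_neg_distrib, Real.exp_sum]
      refine Finset.prod_congr rfl fun j _ => ?_
      rw [← Real.exp_nat_mul]
      congr 1; ring
    rw [h4, ← Real.exp_add]
    refine Real.exp_le_exp.mpr ?_
    have h7 : (b0 : ℝ) ≤ a.degree := by exact_mod_cast ha.le
    linarith
  -- the total mass off zero
  have htot : ∀ A : Finset (J →₀ ℕ), 0 ∉ A → ∑ a ∈ A, |X a| ≤ 1 / 4 := by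
    intro A hA
    rw [← Finset.sum_filter_add_sum_filter_not A (fun a : J →₀ ℕ => a.degree ≤ b0)]
    have h1 : ∑ a ∈ A.filter (fun a : J →₀ ℕ => a.degree ≤ b0), |X a| ≤ 1 / 16 := by
      have e1 : ∑ a ∈ A.filter (fun a : J →₀ ℕ => a.degree ≤ b0), |X a|
          ≤ ∑ a ∈ A.filter (fun a : J →₀ ℕ => a.degree ≤ b0), Real.exp C1 * mo y a :=
        Finset.sum_le_sum fun a ha => hmid a (Finset.mem_filter.mp ha).2
      refine e1.trans ?_
      rw [← Finset.mul_sum]
      have hexp : Real.exp (-C1) ≤ 1 := by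
        rw [Real.exp_le_one_iff]; linarith
      have e2 := sum_mo_le (y := y) (fun j => (Real.exp_pos _).le) hs2 (by linarith)
        (A.filter (fun a : J →₀ ℕ => a.degree ≤ b0)) (by simp [hA])
      have e3 : Real.exp C1 * Real.exp (-C1) = 1 := by rw [← Real.exp_add]; simp
      have e4 := mul_le_mul_of_nonneg_left e2 (Real.exp_pos C1).le
      nlinarith
    have h2 : ∑ a ∈ A.filter (fun a : J →₀ ℕ => ¬ a.degree ≤ b0), |X a| ≤ 1 / 8 := by
      have e1 : ∑ a ∈ A.filter (fun a : J →₀ ℕ => ¬ a.degree ≤ b0), |X a|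
          ≤ ∑ a ∈ A.filter (fun a : J →₀ ℕ => ¬ a.degree ≤ b0),
            Real.exp (C1 + M - b0) * mo (fun _ => Real.exp (-1)) a :=
        Finset.sum_le_sum fun a ha => hbig a (not_le.mp (Finset.mem_filter.mp ha).2)
      refine e1.trans ?_
      rw [← Finset.mul_sum]
      have hexp1 : Real.exp (-1) < 1 := by rw [Real.exp_lt_one_iff]; norm_num
      have e2 := sum_mo_le_prod (y := fun _ : J => Real.exp (-1)) (fun j => (Real.exp_pos _).le)
        (fun j => hexp1) (A.filter (fun a : J →₀ ℕ => ¬ a.degree ≤ b0))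
      have hlin : (2 : ℝ) ≤ Real.exp 1 := by
        have := Real.add_one_le_exp (1 : ℝ); linarith
      have e3 : (1 - Real.exp (-1))⁻¹ ≤ Real.exp 1 := by
        have h5 : Real.exp 1 * Real.exp (-1) = 1 := by rw [← Real.exp_add]; simp
        rw [inv_le_comm₀ (by linarith) (Real.exp_pos _), ← Real.exp_neg]
        have h6 := Real.exp_pos (-1)
        nlinarith
      have e4 : ∏ _j : J, (1 - Real.exp (-1))⁻¹ ≤ Real.exp (Fintype.card J) := by
        rw [Finset.prod_const, Finset.card_univ]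
        refine (pow_le_pow_left₀ (by rw [inv_nonneg]; linarith) e3 _).trans (le_of_eq ?_)
        rw [← Real.exp_nat_mul, mul_one]
      have e5 : Real.exp (C1 + M - b0) * Real.exp (Fintype.card J) ≤ 1 / 8 := by
        rw [← Real.exp_add]
        have h7 : Real.exp (C1 + M - b0 + Fintype.card J) ≤ Real.exp (-3) :=
          Real.exp_le_exp.mpr (by linarith)
        refine h7.trans ?_
        have h8 : (8 : ℝ) ≤ Real.exp 3 := by
          have h9 : Real.exp 3 = Real.exp 1 ^ 3 := by rw [← Real.exp_nat_mul]; norm_num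
          rw [h9]
          calc (8 : ℝ) = 2 ^ 3 := by norm_num
            _ ≤ Real.exp 1 ^ 3 := pow_le_pow_left₀ (by norm_num) hlin 3
        rw [Real.exp_neg, one_div]
        exact inv_anti₀ (by norm_num) h8
      exact (mul_le_mul_of_nonneg_left (e2.trans e4) (Real.exp_pos _).le).trans e5
    linarith
  have hsumX : Summable fun a => |X a| := by
    refine summable_of_sum_le (c := 2) (fun a => abs_nonneg _) fun A => ?_
    have h1 : ∑ a ∈ A, |X a| ≤ ∑ a ∈ insert 0 (A.erase 0), |X a| :=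
      Finset.sum_le_sum_of_subset_of_nonneg (by
        intro a ha
        by_cases h : a = 0
        · rw [h]; exact Finset.mem_insert_self _ _
        · exact Finset.mem_insert_of_mem (Finset.mem_erase.mpr ⟨h, ha⟩))
        fun a _ _ => abs_nonneg _
    rw [Finset.sum_insert (Finset.notMem_erase _ _), hX0, abs_one] at h1
    have := htot (A.erase 0) (Finset.notMem_erase _ _)
    linarith
  have hsumX' : Summable X := hsumX.of_abs
  have hXge : 3 / 4 ≤ ∑' a, X a := by
    have h1 := hsumX'.sum_add_tsum_subtype_compl {0}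
    rw [Finset.sum_singleton, hX0] at h1
    have h2 : |∑' x : {x // x ∉ ({0} : Finset (J →₀ ℕ))}, X x| ≤ 1 / 4 := by
      have hs : Summable fun x : {x // x ∉ ({0} : Finset (J →₀ ℕ))} => |X x| :=
        hsumX.subtype _
      refine (Real.norm_eq_abs _ ▸ norm_tsum_le_tsum_norm (by simpa [Real.norm_eq_abs] using hs)).trans ?_
      refine hs.tsum_le_of_sum_le fun A => ?_
      have h3 := htot (A.map (Function.Embedding.subtype _)) (by simp)
      rw [Finset.sum_map] at h3
      exact h3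
    have h3 := neg_abs_le (∑' x : {x // x ∉ ({0} : Finset (J →₀ ℕ))}, X x)
    linarith
  -- the product formula
  have hsF : HasSum F (∑ a ∈ S, F a) := hasSum_sum_of_ne_finset_zero hFS
  have hsE := summable_abs_Ex hT0 (fun m => -W m)
  have hsFa : Summable fun a => |F a| :=
    (hasSum_sum_of_ne_finset_zero (s := S) (fun a ha => by rw [hFS a ha, abs_zero])).summable
  have hprod : (∑' a, F a) * ∑' a, Ex T (fun m => -W m) a = ∑' a, X a := by
    refine hsF.summable.tsum_mul_tsum_eq_tsum_sum_antidiagonal hsE.of_abs ?_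
    refine (hsFa.mul_of_nonneg hsE (fun _ => abs_nonneg _) (fun _ => abs_nonneg _)).of_norm_bounded
      fun x => ?_
    rw [Real.norm_eq_abs, abs_mul]
  rw [hsF.tsum_eq, tsum_Ex hT0, Finset.sum_neg_distrib] at hprod
  have hfin : ∑ a ∈ S, F a = (∑' a, X a) * Real.exp (∑ m ∈ T, W m) := by
    rw [← hprod, mul_assoc, ← Real.exp_add]
    simp
  rw [hfin]
  have h1 : -∑ m ∈ T, |W m| ≤ ∑ m ∈ T, W m := by
    rw [← Finset.sum_neg_distrib]
    exact Finset.sum_le_sum fun m _ => neg_abs_le _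
  have h2 := Real.exp_le_exp.mpr h1
  have h3 := Real.exp_pos (-∑ m ∈ T, |W m|)
  nlinarith

end Vale.Agent.P042.H984
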